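import Vale.Agent.P212.NormFin.Entries

/-!
P212: operators with prescribed bounded entries of finite propagation.
-/

open scoped InnerProductSpace

namespace VP212

variable {X : Type}

theorem norm_fibre_sq (w : Fibre) (s : Finset ℕ) : ∑ k ∈ s, ‖w k‖ ^ 2 ≤ ‖w‖ ^ 2 := by
  have h := lp.sum_rpow_le_norm_rpow (p := 2) (by simp) w s
  simpa using h

theorem sum_norm_fibOut_sq (v : RoeSpace X) (U : Finset X) :
    ∑ y ∈ U, ‖fibOut y v‖ ^ 2 ≤ ‖v‖ ^ 2 := by
  classical
  set P : RoeSpace X := ∑ y ∈ U, fibIn y (fibOut y v) with hP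
  have hPy : ∀ y ∈ U, fibOut y P = fibOut y v := fun y hy => by
    rw [hP, map_sum, Finset.sum_eq_single y (fun b _ hb => fibOut_fibIn_ne hb.symm _)
      (fun h => absurd hy h), fibOut_fibIn_self]
  have key : ∀ w : RoeSpace X, (∀ y ∈ U, fibOut y w = fibOut y v) →
      ⟪P, w⟫_ℂ = ((∑ y ∈ U, ‖fibOut y v‖ ^ 2 : ℝ) : ℂ) := fun w hw => by
    rw [hP, sum_inner, Complex.ofReal_sum]
    refine Finset.sum_congr rfl fun y hy => ?_
    rw [← ContinuousLinearMap.adjoint_inner_right, ← fibOut, hw y hy, inner_self_eq_norm_sq_to_K]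
    simp
  have h1 := key v fun _ _ => rfl
  have h2 := key P hPy
  rw [inner_self_eq_norm_sq_to_K] at h2
  have h2' : ‖P‖ ^ 2 = ∑ y ∈ U, ‖fibOut y v‖ ^ 2 := Complex.ofReal_injective (by
    simpa using h2)
  have h1' : ‖P‖ ^ 2 ≤ ‖P‖ * ‖v‖ := by
    have h := norm_inner_le_norm (𝕜 := ℂ) P v
    rwa [h1, Complex.norm_real, Real.norm_of_nonneg
      (Finset.sum_nonneg fun _ _ => sq_nonneg _), ← h2'] at h
  rw [← h2']
  rcases eq_or_lt_of_le (norm_nonneg P) with h | h
  · rw [← h]; nlinarith [norm_nonneg v]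
  · exact pow_le_pow_left₀ (norm_nonneg _) (le_of_mul_le_mul_left (by nlinarith) h) 2

variable (E : X → X → Fibre →L[ℂ] Fibre) (ball : X → Finset X)

/-- The `x` coordinate of the operator with entries `E`. -/
noncomputable def rowOp (x : X) : RoeSpace X →L[ℂ] Fibre :=
  ∑ y ∈ ball x, (E x y).comp (fibOut y)

variable {E ball}

theorem sum_rowOp_sq {C : ℝ} (hC : ∀ x y, ‖E x y‖ ≤ C) {N : ℕ} (hN : ∀ x, (ball x).card ≤ N)
    (hsym : ∀ x y, y ∈ ball x → x ∈ ball y) (v : RoeSpace X) (s : Finset X) :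
    ∑ x ∈ s, ‖rowOp E ball x v‖ ^ 2 ≤ (C * N * ‖v‖) ^ 2 := by
  classical
  calc ∑ x ∈ s, ‖rowOp E ball x v‖ ^ 2
      ≤ ∑ x ∈ s, C ^ 2 * (N * ∑ y ∈ ball x, ‖fibOut y v‖ ^ 2) := by
        refine Finset.sum_le_sum fun x _ => ?_
        have a1 : ‖rowOp E ball x v‖ ≤ C * ∑ y ∈ ball x, ‖fibOut y v‖ := by
          rw [rowOp, sum_apply, Finset.mul_sum]
          exact (norm_sum_le _ _).trans (Finset.sum_le_sum fun y _ =>
            ((E x y).le_opNorm _).trans (mul_le_mul_of_nonneg_right (hC x y) (norm_nonneg _)))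
        refine (pow_le_pow_left₀ (norm_nonneg _) a1 2).trans ?_
        rw [mul_pow]
        refine mul_le_mul_of_nonneg_left ?_ (sq_nonneg C)
        refine sq_sum_le_card_mul_sum_sq.trans ?_
        exact mul_le_mul_of_nonneg_right (by exact_mod_cast hN x)
          (Finset.sum_nonneg fun _ _ => sq_nonneg _)
    _ ≤ C ^ 2 * (N * (N * ‖v‖ ^ 2)) := by
        rw [← Finset.mul_sum, ← Finset.mul_sum]
        refine mul_le_mul_of_nonneg_left (mul_le_mul_of_nonneg_left ?_ (Nat.cast_nonneg N))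
          (sq_nonneg C)
        rw [Finset.sum_comm' (t' := s.biUnion ball) (s' := fun y => s.filter fun x => y ∈ ball x)
          (fun x y => by simp only [Finset.mem_filter, Finset.mem_biUnion]; tauto)]
        refine le_trans (Finset.sum_le_sum fun y _ => ?_)
          (le_trans (Finset.mul_sum _ _ _).ge
            (mul_le_mul_of_nonneg_left (sum_norm_fibOut_sq v (s.biUnion ball)) (Nat.cast_nonneg N)))
        rw [Finset.sum_const, nsmul_eq_mul]
        refine mul_le_mul_of_nonneg_right ?_ (sq_nonneg _)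
        exact_mod_cast (Finset.card_le_card fun x hx => hsym x y (Finset.mem_filter.1 hx).2).trans
          (hN y)
    _ = (C * N * ‖v‖) ^ 2 := by ring

theorem sum_pair_sq {C : ℝ} (hC : ∀ x y, ‖E x y‖ ≤ C) {N : ℕ} (hN : ∀ x, (ball x).card ≤ N)
    (hsym : ∀ x y, y ∈ ball x → x ∈ ball y) (v : RoeSpace X) (s : Finset (X × ℕ)) :
    ∑ p ∈ s, ‖rowOp E ball p.1 v p.2‖ ^ 2 ≤ (C * N * ‖v‖) ^ 2 := by
  classical
  refine le_trans (Finset.sum_le_sum_of_subset_of_nonneg (Finset.subset_product (s := s))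
    fun _ _ _ => sq_nonneg _) ?_
  rw [Finset.sum_product]
  refine le_trans ?_ (sum_rowOp_sq hC hN hsym v (s.image Prod.fst))
  refine Finset.sum_le_sum fun x _ => ?_
  exact norm_fibre_sq (rowOp E ball x v) (s.image Prod.snd)

theorem exists_of_ball {C : ℝ} (hC : ∀ x y, ‖E x y‖ ≤ C) {N : ℕ} (hN : ∀ x, (ball x).card ≤ N)
    (hsym : ∀ x y, y ∈ ball x → x ∈ ball y) (h0 : ∀ x y, y ∉ ball x → E x y = 0) :
    ∃ T : RoeSpace X →L[ℂ] RoeSpace X, ∀ x y, entry T x y = E x y := by
  classical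
  have hm : ∀ v : RoeSpace X, Memℓp (fun p : X × ℕ => rowOp E ball p.1 v p.2) 2 := fun v =>
    memℓp_gen' (C := (C * N * ‖v‖) ^ 2) fun s => by simpa using sum_pair_sq hC hN hsym v s
  let L : RoeSpace X →ₗ[ℂ] RoeSpace X :=
    { toFun := fun v => ⟨fun p => rowOp E ball p.1 v p.2, hm v⟩
      map_add' := fun a b => lp.ext (funext fun p => by simp; rfl)
      map_smul' := fun c a => lp.ext (funext fun p => by simp) }
  refine ⟨L.mkContinuous (|C| * N) fun v => ?_, fun x y => ?_⟩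
  · refine lp.norm_le_of_forall_sum_le (p := 2) (by simp) (by positivity) fun s => ?_
    have h := sum_pair_sq hC hN hsym v s
    simpa [L, mul_pow, sq_abs] using h
  · have e : ∀ w, fibOut x (L w) = rowOp E ball x w := fun w =>
      lp.ext (funext fun k => by rw [fibOut_apply]; rfl)
    ext1 u
    rw [entry_apply, LinearMap.mkContinuous_apply, e, rowOp, sum_apply]
    by_cases hy : y ∈ ball x
    · rw [Finset.sum_eq_single y (fun b _ hb => by simp [fibOut_fibIn_ne hb])
        (fun h => absurd hy h)]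
      simp [fibOut_fibIn_self]
    · rw [h0 x y hy, Finset.sum_eq_zero fun b hb => ?_]
      · simp
      · simp [fibOut_fibIn_ne (fun h : b = y => hy (h ▸ hb))]

variable [MetricSpace X]

/-- The finite set of points within `R` of `x`. -/
noncomputable def nearSet (hX : BoundedGeometry X) (R : ℝ) (x : X) : Finset X :=
  ((hX R).choose_spec x).1.toFinset

theorem mem_nearSet {hX : BoundedGeometry X} {R : ℝ} {x y : X} :
    y ∈ nearSet hX R x ↔ dist y x ≤ R := by
  simp [nearSet, Metric.mem_closedBall]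

theorem card_nearSet (hX : BoundedGeometry X) (R : ℝ) (x : X) :
    (nearSet hX R x).card ≤ (hX R).choose := by
  rw [nearSet, ← Set.ncard_eq_toFinset_card _ _]
  exact ((hX R).choose_spec x).2

/-- An operator is determined by, and can be prescribed by, bounded entries of finite
propagation. -/
theorem exists_op_of_entries (hX : BoundedGeometry X) (E : X → X → Fibre →L[ℂ] Fibre) {C R : ℝ}
    (hC : ∀ x y, ‖E x y‖ ≤ C) (hR : ∀ x y, R < dist x y → E x y = 0) :
    ∃ T : RoeSpace X →L[ℂ] RoeSpace X, ∀ x y, entry T x y = E x y :=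
  exists_of_ball hC (card_nearSet hX R)
    (fun x y h => by rw [mem_nearSet] at h ⊢; rwa [dist_comm])
    (fun x y h => hR x y (by rw [mem_nearSet, dist_comm] at h; exact not_le.1 h))

/-- The same inside `C[X]`. -/
theorem exists_isRoe_of_entries (hX : BoundedGeometry X) (E : X → X → Fibre →L[ℂ] Fibre)
    {C R : ℝ} (hC : ∀ x y, ‖E x y‖ ≤ C) (hR : ∀ x y, R < dist x y → E x y = 0)
    (hK : ∀ x y, IsCompactOperator (E x y)) :
    ∃ T : RoeSpace X →L[ℂ] RoeSpace X, IsRoe T ∧ ∀ x y, entry T x y = E x y := by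
  obtain ⟨T, hT⟩ := exists_op_of_entries hX E hC hR
  exact ⟨T, (isRoe_iff_entry T).2
    ⟨⟨R, fun x y h => by rw [hT, hR x y h]⟩, fun x y => by rw [hT]; exact hK x y⟩, hT⟩

end VP212
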