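import Vale.Agent.P212.NormFin.Compact
import Vale.Agent.P212.NormFin.Construct

/-!
P212: `C[X]` is closed under the algebraic operations.
-/

namespace VP212

variable {X : Type} [MetricSpace X]

theorem IsRoe.compact_entry {T : RoeSpace X →L[ℂ] RoeSpace X} (h : IsRoe T) (x y : X) :
    IsCompactOperator (entry T x y) :=
  ((isRoe_iff_entry T).1 h).2 x y

theorem isRoe_zero : IsRoe (0 : RoeSpace X →L[ℂ] RoeSpace X) :=
  (isRoe_iff_entry _).2 ⟨⟨0, fun x y _ => entry_zero x y⟩, fun x y => by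
    rw [entry_zero]; exact isCompactOperator_zero⟩

theorem IsRoe.add {S T : RoeSpace X →L[ℂ] RoeSpace X} (hS : IsRoe S) (hT : IsRoe T) :
    IsRoe (S + T) := by
  obtain ⟨⟨R, hR⟩, hc⟩ := (isRoe_iff_entry S).1 hS
  obtain ⟨⟨R', hR'⟩, hc'⟩ := (isRoe_iff_entry T).1 hT
  refine (isRoe_iff_entry _).2 ⟨⟨max R R', fun x y h => ?_⟩, fun x y => ?_⟩
  · rw [entry_add, hR x y (lt_of_le_of_lt (le_max_left _ _) h),
      hR' x y (lt_of_le_of_lt (le_max_right _ _) h), add_zero]
  · rw [entry_add]; exact (hc x y).add (hc' x y)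

theorem IsRoe.smul (c : ℂ) {T : RoeSpace X →L[ℂ] RoeSpace X} (hT : IsRoe T) :
    IsRoe (c • T) := by
  obtain ⟨⟨R, hR⟩, hc⟩ := (isRoe_iff_entry T).1 hT
  refine (isRoe_iff_entry _).2 ⟨⟨R, fun x y h => ?_⟩, fun x y => ?_⟩
  · rw [entry_smul, hR x y h, smul_zero]
  · rw [entry_smul]; exact (hc x y).smul c

theorem IsRoe.neg {T : RoeSpace X →L[ℂ] RoeSpace X} (hT : IsRoe T) : IsRoe (-T) := by
  simpa using hT.smul (-1)

theorem IsRoe.sub {S T : RoeSpace X →L[ℂ] RoeSpace X} (hS : IsRoe S) (hT : IsRoe T) :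
    IsRoe (S - T) := by
  simpa [sub_eq_add_neg] using hS.add hT.neg

theorem isRoe_sum {ι : Type*} (s : Finset ι) {T : ι → RoeSpace X →L[ℂ] RoeSpace X}
    (h : ∀ i ∈ s, IsRoe (T i)) : IsRoe (∑ i ∈ s, T i) :=
  Finset.sum_induction T IsRoe (fun _ _ => IsRoe.add) isRoe_zero h

theorem IsRoe.star {T : RoeSpace X →L[ℂ] RoeSpace X} (hT : IsRoe T) : IsRoe (star T) := by
  obtain ⟨⟨R, hR⟩, hc⟩ := (isRoe_iff_entry T).1 hT
  refine (isRoe_iff_entry _).2 ⟨⟨R, fun x y h => ?_⟩, fun x y => ?_⟩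
  · rw [entry_star, hR y x (by rwa [dist_comm]), map_zero]
  · rw [entry_star]; exact isCompactOperator_adjoint (hc y x)

omit [MetricSpace X] in
/-- The entries of a product, when the row of the first factor is finite. -/
theorem entry_mul {S : RoeSpace X →L[ℂ] RoeSpace X} (T : RoeSpace X →L[ℂ] RoeSpace X) (x z : X)
    (U : Finset X) (hU : ∀ y ∉ U, entry S x y = 0) :
    entry (S * T) x z = ∑ y ∈ U, (entry S x y).comp (entry T y z) := by
  classical
  have hrow : (fibOut x).comp S = ∑ y ∈ U, (entry S x y).comp (fibOut y) := by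
    refine fibre_hom_ext fun w => ?_
    ext1 u
    simp only [ContinuousLinearMap.comp_apply, sum_apply]
    by_cases hw : w ∈ U
    · rw [Finset.sum_eq_single w (fun b _ hb => by rw [fibOut_fibIn_ne hb, map_zero])
        (fun h => absurd hw h), fibOut_fibIn_self]
      rfl
    · rw [Finset.sum_eq_zero fun b hb => by
        rw [fibOut_fibIn_ne (fun h : b = w => hw (h ▸ hb)), map_zero]]
      exact congrArg (fun A : Fibre →L[ℂ] Fibre => A u) (hU w hw)
  ext1 u
  have h := congrArg (fun A : RoeSpace X →L[ℂ] Fibre => A (T (fibIn z u))) hrow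
  simpa [entry_apply, sum_apply] using h

theorem IsRoe.mul (hX : BoundedGeometry X) {S T : RoeSpace X →L[ℂ] RoeSpace X} (hS : IsRoe S)
    (hT : IsRoe T) : IsRoe (S * T) := by
  obtain ⟨⟨R, hR⟩, hc⟩ := (isRoe_iff_entry S).1 hS
  obtain ⟨⟨R', hR'⟩, hc'⟩ := (isRoe_iff_entry T).1 hT
  have hU : ∀ x y, y ∉ nearSet hX R x → entry S x y = 0 := fun x y hy =>
    hR x y (by rw [mem_nearSet, dist_comm] at hy; exact not_le.1 hy)
  refine (isRoe_iff_entry _).2 ⟨⟨R + R', fun x z h => ?_⟩, fun x z => ?_⟩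
  · rw [entry_mul T x z _ (hU x)]
    refine Finset.sum_eq_zero fun y hy => ?_
    have hd : R' < dist y z := by
      rw [mem_nearSet, dist_comm] at hy
      linarith [dist_triangle x y z]
    rw [hR' y z hd, ContinuousLinearMap.comp_zero]
  · rw [entry_mul T x z _ (hU x)]
    exact Submodule.sum_mem (compactOperator (RingHom.id ℂ) Fibre Fibre)
      fun y _ => (hc x y).comp_clm (entry T y z)

end VP212
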