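import Vale.Agent.P212.NormFin.Closure
import Vale.Agent.P212.Base.Ops

/-!
P212: the universal norm is finite under bounded geometry.
-/

namespace VP212

variable {X : Type} [MetricSpace X]

/-- Diagonal operators with compact entries. -/
noncomputable def diagAlg (_hX : BoundedGeometry X) :
    NonUnitalStarSubalgebra ℂ (RoeSpace X →L[ℂ] RoeSpace X) where
  carrier := {T | ∀ x y, (x ≠ y → entry T x y = 0) ∧ IsCompactOperator (entry T x y)}
  add_mem' {S T} hS hT x y := by
    refine ⟨fun h => ?_, ?_⟩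
    · rw [entry_add, (hS x y).1 h, (hT x y).1 h, add_zero]
    · rw [entry_add]; exact (hS x y).2.add (hT x y).2
  zero_mem' x y := by
    refine ⟨fun _ => entry_zero x y, ?_⟩
    rw [entry_zero]; exact isCompactOperator_zero
  smul_mem' c T hT x y := by
    refine ⟨fun h => ?_, ?_⟩
    · rw [entry_smul, (hT x y).1 h, smul_zero]
    · rw [entry_smul]; exact (hT x y).2.smul c
  mul_mem' {S T} hS hT x z := by
    have e := entry_mul T x z {x} fun y hy => (hS x y).1 fun h => hy (by simp [h])
    rw [Finset.sum_singleton] at e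
    rw [e]
    exact ⟨fun h => by rw [(hT x z).1 h, ContinuousLinearMap.comp_zero],
      (hS x x).2.comp_clm (entry T x z)⟩
  star_mem' {T} hT x y := by
    rw [entry_star]
    exact ⟨fun h => by rw [(hT y x).1 h.symm, map_zero], isCompactOperator_adjoint (hT y x).2⟩

theorem isRoe_of_mem_diagAlg {hX : BoundedGeometry X} {T : RoeSpace X →L[ℂ] RoeSpace X}
    (h : T ∈ diagAlg hX) : IsRoe T :=
  (isRoe_iff_entry T).2 ⟨⟨0, fun x y hd => (h x y).1 fun e => by simp [e] at hd⟩,
    fun x y => (h x y).2⟩

theorem isClosed_diagAlg (hX : BoundedGeometry X) :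
    IsClosed (diagAlg hX : Set (RoeSpace X →L[ℂ] RoeSpace X)) := by
  have e : (diagAlg hX : Set (RoeSpace X →L[ℂ] RoeSpace X)) =
      ⋂ (x : X) (y : X), {T | x ≠ y → entry T x y = 0} ∩
        (fun T => entry T x y) ⁻¹' {A | IsCompactOperator A} := by
    ext T
    simp only [Set.mem_iInter]
    exact Iff.rfl
  rw [e]
  refine isClosed_iInter fun x => isClosed_iInter fun y => IsClosed.inter ?_
    (isClosed_setOfPred_isCompactOperator.preimage (continuous_entry x y))
  by_cases h : x = y
  · simp [h]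
  · simpa [h] using isClosed_eq (continuous_entry x y) continuous_const

/-- Every representation contracts diagonal operators. -/
theorem RoeRep.norm_diag_le (π : RoeRep X) (hX : BoundedGeometry X)
    {D : RoeSpace X →L[ℂ] RoeSpace X} (hD : D ∈ diagAlg hX) : ‖π.π D‖ ≤ ‖D‖ := by
  have : IsClosed (diagAlg hX : Set (RoeSpace X →L[ℂ] RoeSpace X)) := isClosed_diagAlg hX
  have hz : π.π 0 = 0 := by
    simpa using π.map_smul 0 0 isRoe_zero
  let φ : diagAlg hX →⋆ₙₐ[ℂ] (π.carrier →L[ℂ] π.carrier) :=
    { toFun := fun T => π.π T.1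
      map_smul' := fun c T => π.map_smul c T.1 (isRoe_of_mem_diagAlg T.2)
      map_zero' := hz
      map_add' := fun S T => π.map_add S.1 T.1 (isRoe_of_mem_diagAlg S.2)
        (isRoe_of_mem_diagAlg T.2)
      map_mul' := fun S T => π.map_mul S.1 T.1 (isRoe_of_mem_diagAlg S.2)
        (isRoe_of_mem_diagAlg T.2)
      map_star' := fun T => π.map_star T.1 (isRoe_of_mem_diagAlg T.2) }
  exact NonUnitalStarAlgHom.norm_apply_le φ ⟨D, hD⟩

theorem RoeRep.map_sum (π : RoeRep X) {ι : Type*} (s : Finset ι)
    (T : ι → RoeSpace X →L[ℂ] RoeSpace X) (h : ∀ i ∈ s, IsRoe (T i)) :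
    π.π (∑ i ∈ s, T i) = ∑ i ∈ s, π.π (T i) := by
  classical
  induction s using Finset.induction_on with
  | empty => simpa using π.map_smul 0 0 isRoe_zero
  | insert a s ha ih =>
    rw [Finset.sum_insert ha, Finset.sum_insert ha,
      π.map_add _ _ (h a (Finset.mem_insert_self a s))
        (isRoe_sum s fun i hi => h i (Finset.mem_insert_of_mem hi)),
      ih fun i hi => h i (Finset.mem_insert_of_mem hi)]

/-- The position of `y` among the points near `x`. -/
noncomputable def nearIdx (hX : BoundedGeometry X) (R : ℝ) (x y : X) : ℕ := by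
  classical exact (nearSet hX R x).toList.idxOf y

theorem nearIdx_lt {hX : BoundedGeometry X} {R : ℝ} {x y : X} (h : y ∈ nearSet hX R x) :
    nearIdx hX R x y < (hX R).choose := by
  classical
  exact lt_of_lt_of_le (List.idxOf_lt_length_of_mem (Finset.mem_toList.2 h))
    ((Finset.length_toList _).trans_le (card_nearSet hX R x))

theorem nearIdx_inj {hX : BoundedGeometry X} {R : ℝ} {x y z : X} (hy : y ∈ nearSet hX R x)
    (h : nearIdx hX R x y = nearIdx hX R x z) : y = z := by
  classical
  exact (List.idxOf_inj (Finset.mem_toList.2 hy)).1 h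

/-- Every element of `C[X]` is a finite sum of pieces whose square is diagonal. -/
theorem exists_pieces (hX : BoundedGeometry X) {T : RoeSpace X →L[ℂ] RoeSpace X} (hT : IsRoe T) :
    ∃ (n : ℕ) (P : Fin n × Fin n → (RoeSpace X →L[ℂ] RoeSpace X)),
      (∀ c, IsRoe (P c) ∧ star (P c) * P c ∈ diagAlg hX) ∧ ∑ c, P c = T := by
  classical
  obtain ⟨⟨R, hR⟩, hK⟩ := (isRoe_iff_entry T).1 hT
  let col : X → X → Fin (hX R).choose × Fin (hX R).choose → Prop := fun x y c =>
    y ∈ nearSet hX R x ∧ nearIdx hX R x y = c.1 ∧ nearIdx hX R y x = c.2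
  let E : Fin (hX R).choose × Fin (hX R).choose → X → X → Fibre →L[ℂ] Fibre := fun c x y =>
    if col x y c then entry T x y else 0
  have hE : ∀ c, ∃ P : RoeSpace X →L[ℂ] RoeSpace X, IsRoe P ∧ ∀ x y, entry P x y = E c x y :=
    fun c => exists_isRoe_of_entries hX (E c) (C := ‖T‖) (R := R)
      (fun x y => by
        simp only [E]; split_ifs
        · exact norm_entry_le T x y
        · simp)
      (fun x y h => by simp [E, hR x y h])
      (fun x y => by
        simp only [E]; split_ifs
        · exact hK x y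
        · exact isCompactOperator_zero)
  choose P hP hPe using hE
  refine ⟨_, P, fun c => ⟨hP c, fun y z => ⟨fun hyz => ?_,
    ((hP c).star.mul hX (hP c)).compact_entry y z⟩⟩, op_ext fun x y => ?_⟩
  · rw [entry_mul (P c) y z (nearSet hX R y) fun x hx => ?_]
    · refine Finset.sum_eq_zero fun x _ => ?_
      rw [entry_star, hPe, hPe]
      simp only [E]
      split_ifs with h1 h2
      · exact absurd (nearIdx_inj h1.1 (h1.2.1.trans h2.2.1.symm)) hyz
      all_goals simp
    · rw [entry_star, hPe]
      have : ¬ col x y c := fun h => hx (by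
        have := h.1
        rw [mem_nearSet] at this ⊢
        rwa [dist_comm])
      simp [E, this]
  · simp only [entry_sum, hPe, E]
    by_cases hy : y ∈ nearSet hX R x
    · have hx : x ∈ nearSet hX R y := by
        rw [mem_nearSet] at hy ⊢; rwa [dist_comm]
      rw [Finset.sum_eq_single (⟨nearIdx hX R x y, nearIdx_lt hy⟩, ⟨nearIdx hX R y x, nearIdx_lt hx⟩)]
      · simp [col, hy]
      · intro b _ hb
        refine if_neg fun h => hb ?_
        exact Prod.ext (Fin.ext h.2.1.symm) (Fin.ext h.2.2.symm)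
      · simp
    · rw [mem_nearSet, dist_comm] at hy
      simp [hR x y (not_le.1 hy)]

/-- The representations are uniformly bounded on each element of `C[X]`. -/
theorem exists_bound (hX : BoundedGeometry X) {T : RoeSpace X →L[ℂ] RoeSpace X} (hT : IsRoe T) :
    ∃ C : ℝ, 0 ≤ C ∧ ∀ π : RoeRep X, ‖π.π T‖ ≤ C := by
  obtain ⟨n, P, hP, hsum⟩ := exists_pieces hX hT
  refine ⟨∑ c, Real.sqrt ‖star (P c) * P c‖,
    Finset.sum_nonneg fun _ _ => Real.sqrt_nonneg _, fun π => ?_⟩
  rw [← hsum, π.map_sum _ _ fun c _ => (hP c).1]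
  refine (norm_sum_le _ _).trans (Finset.sum_le_sum fun c _ => ?_)
  refine Real.le_sqrt_of_sq_le ?_
  rw [sq, ← CStarRing.norm_star_mul_self, ← π.map_star _ (hP c).1,
    ← π.map_mul _ _ (hP c).1.star (hP c).1]
  exact π.norm_diag_le hX (hP c).2

theorem maxNormFinite (hX : BoundedGeometry X) : MaxNormFinite X := by
  intro T hT
  obtain ⟨C, hC0, hC⟩ := exists_bound hX hT
  have hb : ∀ (v : UnivSpace X) (s : Finset (RoeRep X)),
      ∑ π ∈ s, ‖π.π T (v π)‖ ^ 2 ≤ (C * ‖v‖) ^ 2 := fun v s => by
    calc ∑ π ∈ s, ‖π.π T (v π)‖ ^ 2 ≤ ∑ π ∈ s, C ^ 2 * ‖v π‖ ^ 2 :=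
          Finset.sum_le_sum fun π _ => by
            rw [← mul_pow]
            exact pow_le_pow_left₀ (norm_nonneg _)
              (((π.π T).le_opNorm _).trans (mul_le_mul_of_nonneg_right (hC π) (norm_nonneg _))) 2
      _ ≤ C ^ 2 * ‖v‖ ^ 2 := by
          rw [← Finset.mul_sum]
          refine mul_le_mul_of_nonneg_left ?_ (sq_nonneg C)
          simpa using lp.sum_rpow_le_norm_rpow (p := 2) (by simp) v s
      _ = (C * ‖v‖) ^ 2 := by ring
  let L : UnivSpace X →ₗ[ℂ] UnivSpace X :=
    { toFun := fun v => ⟨fun π => π.π T (v π),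
        memℓp_gen' (C := (C * ‖v‖) ^ 2) fun s => by simpa using hb v s⟩
      map_add' := fun a b => lp.ext (funext fun π => by simp; rfl)
      map_smul' := fun c a => lp.ext (funext fun π => by simp) }
  refine ⟨L.mkContinuous C fun v => ?_, fun v π => rfl⟩
  refine lp.norm_le_of_forall_sum_le (p := 2) (by simp) (by positivity) fun s => ?_
  simpa [L] using hb v s

/-- The universal norm is finite under bounded geometry. -/
theorem normFinite : NormFiniteSpec := fun _ _ _ hX => maxNormFinite hX

end VP212
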