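import Mathlib

/-!
P212: the adjoint of a compact operator between Hilbert spaces is compact.
-/

open scoped InnerProductSpace

namespace VP212

theorem isCompactOperator_adjoint {E F : Type*} [NormedAddCommGroup E] [InnerProductSpace ℂ E]
    [CompleteSpace E] [NormedAddCommGroup F] [InnerProductSpace ℂ F] [CompleteSpace F]
    {T : E →L[ℂ] F} (hT : IsCompactOperator T) :
    IsCompactOperator (ContinuousLinearMap.adjoint T) := by
  have hS : IsCompactOperator (T.comp (ContinuousLinearMap.adjoint T)) := hT.comp_clm _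
  have h1 := hS.isCompact_closure_image_closedBall
    (f := (T.comp (ContinuousLinearMap.adjoint T) : F →ₗ[ℂ] F)) 1
  change IsCompactOperator (ContinuousLinearMap.adjoint T : F →ₗ[ℂ] E)
  rw [isCompactOperator_iff_isCompact_closure_image_closedBall
    (ContinuousLinearMap.adjoint T : F →ₗ[ℂ] E) zero_lt_one]
  refine TotallyBounded.closure ?_ |>.isCompact_of_isClosed isClosed_closure
  rw [Metric.totallyBounded_iff]
  intro ε hε
  obtain ⟨t, hts, htf, hcov⟩ := Metric.finite_approx_of_totallyBounded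
    ((h1.totallyBounded).subset subset_closure) (ε ^ 2 / 4) (by positivity)
  classical
  have hts' : ∀ z ∈ t, ∃ y, y ∈ Metric.closedBall (0 : F) 1 ∧
      T (ContinuousLinearMap.adjoint T y) = z := fun z hz => hts hz
  choose! g hg hg' using hts'
  refine ⟨(fun z => ContinuousLinearMap.adjoint T (g z)) '' t, htf.image _, ?_⟩
  rintro _ ⟨y, hy, rfl⟩
  obtain ⟨z, hz, hzy⟩ := Set.mem_iUnion₂.1 (hcov ⟨y, hy, rfl⟩)
  refine Set.mem_iUnion₂.2 ⟨_, ⟨z, hz, rfl⟩, ?_⟩
  rw [Metric.mem_ball, dist_eq_norm] at hzy ⊢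
  rw [← hg' z hz] at hzy
  change ‖T (ContinuousLinearMap.adjoint T y) - T (ContinuousLinearMap.adjoint T (g z))‖ < _
    at hzy
  change ‖ContinuousLinearMap.adjoint T y - ContinuousLinearMap.adjoint T (g z)‖ < ε
  rw [← map_sub, ← map_sub] at hzy
  rw [← map_sub]
  set u := y - g z with hu
  have hu2 : ‖u‖ ≤ 2 := by
    have a1 : ‖y‖ ≤ 1 := by simpa using hy
    have a2 : ‖g z‖ ≤ 1 := by simpa using hg z hz
    linarith [norm_sub_le y (g z)]
  have h2 : ‖ContinuousLinearMap.adjoint T u‖ ^ 2 ≤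
      ‖u‖ * ‖T (ContinuousLinearMap.adjoint T u)‖ := by
    rw [← inner_self_eq_norm_sq (𝕜 := ℂ), ContinuousLinearMap.adjoint_inner_left]
    exact (RCLike.re_le_norm _).trans (norm_inner_le_norm _ _)
  have h3 : ‖ContinuousLinearMap.adjoint T u‖ ^ 2 < ε ^ 2 := by
    nlinarith [norm_nonneg (T (ContinuousLinearMap.adjoint T u)), norm_nonneg u]
  exact lt_of_pow_lt_pow_left₀ 2 hε.le h3

end VP212
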