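import Vale.Agent.P212.Spec.Roe

/-!
P212: the fibres of `l2(X) ⊗ l2(N)` and the entries of an operator.
-/

open scoped InnerProductSpace

namespace VP212

/-- One fibre. -/
abbrev Fibre : Type := lp (fun _ : ℕ => ℂ) 2

variable {X : Type}

theorem orthonormal_delta (x : X) : Orthonormal ℂ (fun k => delta x k) := by
  classical
  rw [orthonormal_iff_ite]
  intro i j
  simp [delta, lp.inner_single_left, lp.single_apply, Pi.single_apply]

/-- The inclusion of the fibre over `x`. -/
noncomputable def fibIn (x : X) : Fibre →L[ℂ] RoeSpace X :=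
  (orthonormal_delta x).orthogonalFamily.linearIsometry.toContinuousLinearMap

/-- The coordinates over `x`. -/
noncomputable def fibOut (x : X) : RoeSpace X →L[ℂ] Fibre :=
  ContinuousLinearMap.adjoint (fibIn x)

theorem fibIn_single (x : X) (k : ℕ) :
    fibIn x (lp.single 2 k (1 : ℂ)) = delta x k := by
  simp [fibIn, OrthogonalFamily.linearIsometry_apply_single, LinearIsometry.toSpanSingleton_apply]

theorem norm_fibIn_le (x : X) : ‖fibIn x‖ ≤ 1 :=
  LinearIsometry.norm_toContinuousLinearMap_le _

theorem norm_fibOut_le (x : X) : ‖fibOut x‖ ≤ 1 := by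
  rw [fibOut, ContinuousLinearMap.adjoint.norm_map]
  exact norm_fibIn_le x

theorem fibOut_apply (x : X) (v : RoeSpace X) (k : ℕ) : fibOut x v k = v (x, k) := by
  classical
  have h := ContinuousLinearMap.adjoint_inner_right (fibIn x) (lp.single 2 k (1 : ℂ)) v
  rw [fibIn_single, delta, lp.inner_single_left, lp.inner_single_left] at h
  simpa [fibOut] using h

theorem fibre_ext {Y : Type} {u w : RoeSpace Y} (h : ∀ y, fibOut y u = fibOut y w) : u = w := by
  refine lp.ext (funext fun p => ?_)
  rw [← fibOut_apply p.1 u p.2, ← fibOut_apply p.1 w p.2, h]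

theorem inner_delta (x : X) (k : ℕ) (v : RoeSpace X) : ⟪delta x k, v⟫_ℂ = v (x, k) := by
  classical
  simp [delta, lp.inner_single_left]

theorem fibOut_fibIn (x y : X) [Decidable (x = y)] :
    (fibOut x).comp (fibIn y) = if x = y then 1 else 0 := by
  classical
  refine lp.ext_continuousLinearMap (by simp) fun i => ContinuousLinearMap.ext_ring ?_
  refine lp.ext (funext fun k => ?_)
  simp only [ContinuousLinearMap.comp_apply, lp.singleContinuousLinearMap_apply]
  rw [fibIn_single, fibOut_apply]
  by_cases h : x = y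
  · subst h
    simp [delta, lp.single_apply, Pi.single_apply]
  · simp [delta, lp.single_apply, Pi.single_apply, h]

theorem fibOut_fibIn_self (x : X) (u : Fibre) : fibOut x (fibIn x u) = u := by
  classical
  simpa using congrArg (fun A : Fibre →L[ℂ] Fibre => A u) (fibOut_fibIn x x)

theorem fibOut_fibIn_ne {x y : X} (h : x ≠ y) (u : Fibre) : fibOut x (fibIn y u) = 0 := by
  classical
  simpa [h] using congrArg (fun A : Fibre →L[ℂ] Fibre => A u) (fibOut_fibIn x y)

/-- Maps out of `l2(X) ⊗ l2(N)` agree if they agree on every fibre. -/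
theorem fibre_hom_ext {F : Type*} [NormedAddCommGroup F] [NormedSpace ℂ F]
    {f g : RoeSpace X →L[ℂ] F} (h : ∀ x, f.comp (fibIn x) = g.comp (fibIn x)) : f = g := by
  classical
  refine lp.ext_continuousLinearMap (by simp) fun p => ContinuousLinearMap.ext_ring ?_
  have e := congrArg (fun A : Fibre →L[ℂ] F => A (lp.single 2 p.2 (1 : ℂ))) (h p.1)
  simp only [ContinuousLinearMap.comp_apply, fibIn_single, delta] at e
  simpa only [ContinuousLinearMap.comp_apply, lp.singleContinuousLinearMap_apply] using e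

/-- The entry of `T` at `(x, y)`. -/
noncomputable def entry (T : RoeSpace X →L[ℂ] RoeSpace X) (x y : X) : Fibre →L[ℂ] Fibre :=
  (fibOut x).comp (T.comp (fibIn y))

theorem entry_apply (T : RoeSpace X →L[ℂ] RoeSpace X) (x y : X) (u : Fibre) :
    entry T x y u = fibOut x (T (fibIn y u)) := rfl

theorem norm_entry_le (T : RoeSpace X →L[ℂ] RoeSpace X) (x y : X) : ‖entry T x y‖ ≤ ‖T‖ := by
  refine ((fibOut x).opNorm_comp_le _).trans ?_
  refine (mul_le_mul (norm_fibOut_le x) ((T.opNorm_comp_le _).trans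
    (mul_le_of_le_one_right (norm_nonneg _) (norm_fibIn_le y))) (norm_nonneg _) zero_le_one).trans ?_
  rw [one_mul]

theorem op_ext {S T : RoeSpace X →L[ℂ] RoeSpace X} (h : ∀ x y, entry S x y = entry T x y) :
    S = T :=
  fibre_hom_ext fun y => ContinuousLinearMap.ext fun u => fibre_ext fun x =>
    congrArg (fun A : Fibre →L[ℂ] Fibre => A u) (h x y)

theorem entry_add (S T : RoeSpace X →L[ℂ] RoeSpace X) (x y : X) :
    entry (S + T) x y = entry S x y + entry T x y := by
  ext1 u; simp [entry_apply]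

theorem entry_smul (c : ℂ) (T : RoeSpace X →L[ℂ] RoeSpace X) (x y : X) :
    entry (c • T) x y = c • entry T x y := by
  ext1 u; simp [entry_apply]

theorem entry_zero (x y : X) : entry (0 : RoeSpace X →L[ℂ] RoeSpace X) x y = 0 := by
  ext1 u; simp [entry_apply]

theorem entry_sum {ι : Type*} (s : Finset ι) (T : ι → RoeSpace X →L[ℂ] RoeSpace X) (x y : X) :
    entry (∑ i ∈ s, T i) x y = ∑ i ∈ s, entry (T i) x y := by
  ext1 u; simp [entry_apply, map_sum]

theorem entry_star (T : RoeSpace X →L[ℂ] RoeSpace X) (x y : X) :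
    entry (star T) x y = ContinuousLinearMap.adjoint (entry T y x) := by
  simp [entry, fibOut, ContinuousLinearMap.adjoint_comp, ContinuousLinearMap.star_eq_adjoint,
    ContinuousLinearMap.comp_assoc]

theorem continuous_entry (x y : X) :
    Continuous fun T : RoeSpace X →L[ℂ] RoeSpace X => entry T x y :=
  ((ContinuousLinearMap.compL ℂ Fibre (RoeSpace X) Fibre (fibOut x)).continuous.comp
    ((ContinuousLinearMap.compL ℂ Fibre (RoeSpace X) (RoeSpace X)).flip (fibIn y)).continuous)

theorem fibProj_spec (x : X) : IsFibreProj x ((fibIn x).comp (fibOut x)) := by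
  intro v y k
  have e : ((fibIn x).comp (fibOut x)) v (y, k) = fibOut y (fibIn x (fibOut x v)) k :=
    (fibOut_apply y _ k).symm
  refine ⟨fun h => ?_, fun h => ?_⟩
  · subst h
    rw [e, fibOut_fibIn_self, fibOut_apply]
  · rw [e, fibOut_fibIn_ne h]
    rfl

theorem fibProj_unique {x : X} {e : RoeSpace X →L[ℂ] RoeSpace X} (he : IsFibreProj x e) :
    e = (fibIn x).comp (fibOut x) := by
  ext1 v
  refine lp.ext (funext fun p => ?_)
  obtain ⟨y, k⟩ := p
  by_cases h : y = x
  · rw [(he v y k).1 h, (fibProj_spec x v y k).1 h]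
  · rw [(he v y k).2 h, (fibProj_spec x v y k).2 h]

theorem inner_delta_eq_entry (T : RoeSpace X →L[ℂ] RoeSpace X) (x y : X) (k l : ℕ) :
    ⟪delta x k, T (delta y l)⟫_ℂ = entry T x y (lp.single 2 l (1 : ℂ)) k := by
  rw [inner_delta, entry_apply, fibOut_apply, fibIn_single]

theorem far_iff_entry_eq_zero (T : RoeSpace X →L[ℂ] RoeSpace X) (x y : X) :
    (∀ k l, ⟪delta x k, T (delta y l)⟫_ℂ = 0) ↔ entry T x y = 0 := by
  classical
  have e : ∀ k l, ⟪delta x k, T (delta y l)⟫_ℂ = entry T x y (lp.single 2 l (1 : ℂ)) k :=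
    fun k l => by rw [inner_delta, entry_apply, fibOut_apply, fibIn_single]
  simp only [e]
  refine ⟨fun h => ?_, fun h k l => by simp [h]⟩
  refine lp.ext_continuousLinearMap (by simp) fun l => ContinuousLinearMap.ext_ring ?_
  refine lp.ext (funext fun k => ?_)
  simpa using h k l

variable [MetricSpace X]

/-- Membership of `C[X]` in terms of entries. -/
theorem isRoe_iff_entry (T : RoeSpace X →L[ℂ] RoeSpace X) :
    IsRoe T ↔ (∃ R : ℝ, ∀ x y, R < dist x y → entry T x y = 0) ∧
      ∀ x y, IsCompactOperator (entry T x y) := by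
  constructor
  · rintro ⟨⟨R, hR⟩, hc⟩
    refine ⟨⟨R, fun x y h => (far_iff_entry_eq_zero T x y).1 fun k l => hR x y k l h⟩,
      fun x y => ?_⟩
    have h := ((hc x y _ _ (fibProj_spec x) (fibProj_spec y)).comp_clm (fibIn y)).clm_comp
      (fibOut x)
    have e : ⇑(fibOut x) ∘ ⇑(((fibIn x).comp (fibOut x)).comp
        (T.comp ((fibIn y).comp (fibOut y)))) ∘ ⇑(fibIn y) = ⇑(entry T x y) := by
      funext u
      simp [entry_apply, fibOut_fibIn_self]
    rw [← e]
    exact h
  · rintro ⟨⟨R, hR⟩, hc⟩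
    refine ⟨⟨R, fun x y k l h => (far_iff_entry_eq_zero T x y).2 (hR x y h) k l⟩,
      fun x y e e' he he' => ?_⟩
    rw [fibProj_unique he, fibProj_unique he']
    exact ((hc x y).comp_clm (fibOut y)).clm_comp (fibIn x)

end VP212
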